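import Vale.Agent.P004X.P004E.SDefs
import Vale.Agent.P004.B

/-!
# P004E, module S : arithmetic for the removal of large `g` (`StGsum`)

(version with the weight `Aw g ^ 2`)
-/

open Real MeasureTheory Set Filter
open scoped ENNReal Topology

namespace P004E

namespace Gsum

open P004G

theorem one_div_le_exp {x : ℝ} (h0 : 0 ≤ x) (h1 : x ≤ 3 / 4) : (1 - x)⁻¹ ≤ Real.exp (4 * x) := by
  have h2 : (1 - x)⁻¹ ≤ 1 + 4 * x := by
    rw [inv_le_iff_one_le_mul₀ (by linarith)]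
    nlinarith
  linarith [Real.add_one_le_exp (4 * x)]

theorem rpow_small {s : ℝ} (hs : 1 / 2 ≤ s) {p : ℕ} (hp : 2 ≤ p) : (p : ℝ) ^ (-s) ≤ 3 / 4 := by
  have h2 : (2 : ℝ) ≤ p := by exact_mod_cast hp
  have h3 : (p : ℝ) ^ (-s) ≤ (p : ℝ) ^ (-(1 / 2 : ℝ)) :=
    Real.rpow_le_rpow_of_exponent_le (by linarith) (by linarith)
  have h4 : (p : ℝ) ^ (-(1 / 2 : ℝ)) ≤ (2 : ℝ) ^ (-(1 / 2 : ℝ)) :=
    Real.rpow_le_rpow_of_nonpos (by norm_num) h2 (by norm_num)
  have h5 : (2 : ℝ) ^ (-(1 / 2 : ℝ)) ≤ 3 / 4 := by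
    rw [Real.rpow_neg (by norm_num), ← Real.sqrt_eq_rpow, inv_le_comm₀ (by positivity) (by norm_num)]
    apply Real.le_sqrt_of_sq_le
    norm_num
  linarith

theorem card_primeFactors {j : ℕ} (hj : 0 < j) :
    (j.primeFactors.card : ℝ) ≤ 2 * Real.log j := by
  have h1 : 2 ^ j.primeFactors.card ≤ j := by
    calc 2 ^ j.primeFactors.card ≤ ∏ p ∈ j.primeFactors, p := by
          apply Finset.pow_card_le_prod
          intro p hp
          exact (Nat.prime_of_mem_primeFactors hp).two_le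
      _ ≤ j := Nat.le_of_dvd hj (Nat.prod_primeFactors_dvd j)
  have h2 : (2 : ℝ) ^ j.primeFactors.card ≤ j := by exact_mod_cast h1
  have h3 := Real.log_le_log (by positivity) h2
  rw [Real.log_pow] at h3
  have h4 : (1 / 2 : ℝ) ≤ Real.log 2 := by linarith [Real.log_two_gt_d9]
  have h5 : (0 : ℝ) ≤ j.primeFactors.card := by positivity
  nlinarith

variable [Crv]

/-- `∑_{d ∣ j} Aw(d)² d^{-s}` -/
noncomputable def sg (s : ℝ) (j : ℕ) : ℝ := ∑ d ∈ j.divisors, Aw d ^ 2 * (d : ℝ) ^ (-s)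

/-- `∑_{p ∣ j} aw(p)² p^{-s}` -/
noncomputable def pg (s : ℝ) (j : ℕ) : ℝ := ∑ p ∈ j.primeFactors, aw p ^ 2 * (p : ℝ) ^ (-s)

theorem sg_nonneg (s : ℝ) (j : ℕ) : 0 ≤ sg s j := by unfold sg; positivity

theorem pg_nonneg (s : ℝ) (j : ℕ) : 0 ≤ pg s j := by unfold pg; positivity

/-- the power saving for `aw` -/
theorem aw_pow : ∃ δ : ℝ, 0 < δ ∧ δ ≤ 1 / 8 ∧ ∀ p : ℕ, p.Prime → ¬ p ∣ bd →
    aw p ^ 2 ≤ (p : ℝ) ^ (1 - 2 * δ) / 2 := by
  obtain ⟨δ, h0, h⟩ := Crv.c_pow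
  refine ⟨min δ (1 / 8), lt_min h0 (by norm_num), min_le_right _ _, fun p hp hb => ?_⟩
  set η : ℝ := min δ (1 / 8) with hη
  have hη1 : η ≤ δ := min_le_left _ _
  have hη2 : η ≤ 1 / 8 := min_le_right _ _
  have hbig : (10000 : ℝ) ≤ p := by exact_mod_cast Crv.c_big p hp hb
  have hp1 : (1 : ℝ) ≤ p := by linarith
  have hp0 : (0 : ℝ) < p := by linarith
  have h1 : |lam p| ≤ (p : ℝ) ^ (1 / 2 - η) / 100 := by
    have hs : 0 < √(p : ℝ) := Real.sqrt_pos.2 hp0
    have e : |lam p| = |(ca p : ℝ)| / √(p : ℝ) := by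
      unfold lam; rw [abs_div, abs_of_pos hs]
    rw [e, div_le_iff₀ hs]
    have e2 : (p : ℝ) ^ (1 / 2 - η) / 100 * √(p : ℝ) = (p : ℝ) ^ (1 - η) / 100 := by
      rw [Real.sqrt_eq_rpow, div_mul_eq_mul_div, ← Real.rpow_add hp0]
      congr 2; ring
    rw [e2]
    refine (h p hp hb).trans ?_
    gcongr
  have h2 : (1 : ℝ) ≤ (p : ℝ) ^ (1 / 2 - η) / 4 := by
    have h3 : (10000 : ℝ) ^ (3 / 8 : ℝ) ≤ (p : ℝ) ^ (1 / 2 - η) := by
      calc (10000 : ℝ) ^ (3 / 8 : ℝ) ≤ (p : ℝ) ^ (3 / 8 : ℝ) :=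
            Real.rpow_le_rpow (by norm_num) hbig (by norm_num)
        _ ≤ _ := Real.rpow_le_rpow_of_exponent_le hp1 (by linarith)
    have h4 : (4 : ℝ) ≤ (10000 : ℝ) ^ (3 / 8 : ℝ) := by
      have e3 : (4 : ℝ) = (4 ^ (8 / 3 : ℝ)) ^ (3 / 8 : ℝ) := by
        rw [← Real.rpow_mul (by norm_num)]; norm_num
      rw [e3]
      apply Real.rpow_le_rpow (by positivity) _ (by norm_num)
      calc (4 : ℝ) ^ (8 / 3 : ℝ) ≤ (4 : ℝ) ^ (3 : ℝ) :=
            Real.rpow_le_rpow_of_exponent_le (by norm_num) (by norm_num)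
        _ ≤ 10000 := by norm_num
    linarith
  have h5 : aw p ≤ (p : ℝ) ^ (1 / 2 - η) / 2 := by
    unfold aw
    rw [if_neg hb]
    linarith [Real.rpow_nonneg hp0.le (1 / 2 - η)]
  have h6 : aw p ^ 2 ≤ ((p : ℝ) ^ (1 / 2 - η) / 2) ^ 2 := pow_le_pow_left₀ (AW.aw_nonneg p) h5 2
  refine h6.trans ?_
  have e4 : ((p : ℝ) ^ (1 / 2 - η) / 2) ^ 2 = (p : ℝ) ^ (1 - 2 * η) / 4 := by
    rw [div_pow, ← Real.rpow_natCast, ← Real.rpow_mul hp0.le]
    norm_num
    ring_nf
  rw [e4]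
  have : 0 ≤ (p : ℝ) ^ (1 - 2 * η) := Real.rpow_nonneg hp0.le _
  linarith

/-- the constant of `aw_pow` -/
noncomputable def dl : ℝ := Classical.choose aw_pow

theorem dl_pos : 0 < dl := (Classical.choose_spec aw_pow).1

theorem dl_le : dl ≤ 1 / 8 := (Classical.choose_spec aw_pow).2.1

theorem aw_dl {p : ℕ} (hp : p.Prime) (hb : ¬ p ∣ bd) : aw p ^ 2 ≤ (p : ℝ) ^ (1 - 2 * dl) / 2 :=
  (Classical.choose_spec aw_pow).2.2 p hp hb

theorem aw_small {η : ℝ} (h1 : η ≤ dl) {p : ℕ} (hp : p.Prime) :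
    aw p ^ 2 * (p : ℝ) ^ (-(1 - η)) ≤ 3 / 4 := by
  have hd := dl_le
  have hd0 := dl_pos
  have hp1 : (1 : ℝ) ≤ p := by exact_mod_cast hp.one_le
  have hp0 : (0 : ℝ) < p := by linarith
  by_cases hb : p ∣ bd
  · have : aw p = 1 := by unfold aw; rw [if_pos hb]
    rw [this, one_pow, one_mul]
    exact rpow_small (by linarith) hp.two_le
  · calc aw p ^ 2 * (p : ℝ) ^ (-(1 - η)) ≤ (p : ℝ) ^ (1 - 2 * dl) / 2 * (p : ℝ) ^ (-(1 - η)) := by
          gcongr; exact aw_dl hp hb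
      _ = (p : ℝ) ^ (η - 2 * dl) / 2 := by
          rw [div_mul_eq_mul_div, ← Real.rpow_add hp0]; congr 2; ring
      _ ≤ 1 / 2 := by
          gcongr
          exact Real.rpow_le_one_of_one_le_of_nonpos hp1 (by linarith)
      _ ≤ 3 / 4 := by norm_num

theorem sg_mul (s : ℝ) {a b : ℕ} (ha : a ≠ 0) (hb : b ≠ 0) :
    sg s (a * b) ≤ sg s a * sg s b := by
  unfold sg
  rw [Nat.divisors_mul, Finset.mul_def, Finset.sum_mul_sum, ← Finset.sum_product']
  refine (Finset.sum_image_le_of_nonneg (fun u _ => by positivity)).trans ?_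
  apply Finset.sum_le_sum
  intro p hp
  rw [Finset.mem_product, Nat.mem_divisors, Nat.mem_divisors] at hp
  have h1 : p.1 ≠ 0 := fun h => ha (by have := hp.1.1; rw [h] at this; exact zero_dvd_iff.1 this)
  have h2 : p.2 ≠ 0 := fun h => hb (by have := hp.2.1; rw [h] at this; exact zero_dvd_iff.1 this)
  rw [AW.Aw_mul h1 h2]
  push_cast
  rw [Real.mul_rpow (by positivity) (by positivity)]
  apply le_of_eq
  ring

theorem sg_prime_pow {η : ℝ} (h1 : η ≤ dl) {p : ℕ} (hp : p.Prime) (n : ℕ) :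
    sg (1 - η) (p ^ n) ≤ Real.exp (4 * (aw p ^ 2 * (p : ℝ) ^ (-(1 - η)))) := by
  have h0 : 0 ≤ aw p ^ 2 * (p : ℝ) ^ (-(1 - η)) := by positivity
  have h1 := aw_small h1 hp
  refine le_trans ?_ (one_div_le_exp h0 h1)
  unfold sg
  rw [Nat.sum_divisors_prime_pow hp]
  have e : ∀ i ∈ Finset.range (n + 1), Aw (p ^ i) ^ 2 * ((p ^ i : ℕ) : ℝ) ^ (-(1 - η)) =
      (aw p ^ 2 * (p : ℝ) ^ (-(1 - η))) ^ i := by
    intro i _
    rw [AW.Aw_prime_pow hp]
    push_cast
    rw [mul_pow, ← pow_mul, ← pow_mul, mul_comm i 2]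
    congr 1
    rw [← Real.rpow_natCast (x := (p : ℝ)), ← Real.rpow_natCast, ← Real.rpow_mul (by positivity),
      ← Real.rpow_mul (by positivity), mul_comm]
  rw [Finset.sum_congr rfl e]
  exact (Summable.sum_le_tsum _ (fun i _ => by positivity)
    (summable_geometric_of_lt_one h0 (by linarith))).trans
    (tsum_geometric_of_lt_one h0 (by linarith)).le

theorem sg_le {η : ℝ} (h1 : η ≤ dl) (j : ℕ) : sg (1 - η) j ≤ Real.exp (4 * pg (1 - η) j) := by
  induction j using Nat.recOnPosPrimePosCoprime with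
  | prime_pow p n hp hn =>
    have : pg (1 - η) (p ^ n) = aw p ^ 2 * (p : ℝ) ^ (-(1 - η)) := by
      unfold pg
      rw [Nat.primeFactors_prime_pow hn.ne' hp]
      simp
    rw [this]
    exact sg_prime_pow h1 hp n
  | zero => simp [sg, pg]
  | one => simp [sg, pg, AW.Aw_one]
  | coprime a b ha hb hab iha ihb =>
    have : pg (1 - η) (a * b) = pg (1 - η) a + pg (1 - η) b := by
      unfold pg
      rw [hab.primeFactors_mul, Finset.sum_union hab.disjoint_primeFactors]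
    rw [this, mul_add, Real.exp_add]
    exact (sg_mul (1 - η) (by omega) (by omega)).trans
      (mul_le_mul iha ihb (sg_nonneg _ _) (by positivity))

/-- the same with weights `dv^K` -/
theorem sg_dv {η : ℝ} (h1 : η ≤ dl) (j : ℕ) (K : ℕ) :
    ∑ d ∈ j.divisors, Aw d ^ 2 * dv d ^ K * (d : ℝ) ^ (-(1 - η)) ≤
      Real.exp (2 ^ K * (4 * pg (1 - η) j)) := by
  rcases Nat.eq_zero_or_pos j with rfl | hj
  · simp only [Nat.divisors_zero, Finset.sum_empty]
    positivity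
  induction K with
  | zero => simpa [sg] using sg_le h1 j
  | succ K ih =>
    set s : ℝ := 1 - η with hs
    have h1 : ∑ d ∈ j.divisors, Aw d ^ 2 * dv d ^ (K + 1) * (d : ℝ) ^ (-s) ≤
        (∑ d ∈ j.divisors, Aw d ^ 2 * dv d ^ K * (d : ℝ) ^ (-s)) *
          (∑ d ∈ j.divisors, Aw d ^ 2 * dv d ^ K * (d : ℝ) ^ (-s)) := by
      rw [Finset.sum_mul_sum, ← Finset.sum_product']
      have h2 : ∀ d ∈ j.divisors, Aw d ^ 2 * dv d ^ (K + 1) * (d : ℝ) ^ (-s) ≤
          ∑ q ∈ (j.divisors ×ˢ j.divisors).filter (fun q => q.1 * q.2 = d),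
            (Aw q.1 ^ 2 * dv q.1 ^ K * (q.1 : ℝ) ^ (-s)) *
              (Aw q.2 ^ 2 * dv q.2 ^ K * (q.2 : ℝ) ^ (-s)) := by
        intro d hd
        have hsub : d.divisorsAntidiagonal ⊆
            (j.divisors ×ˢ j.divisors).filter (fun q => q.1 * q.2 = d) := by
          intro q hq
          rw [Nat.mem_divisorsAntidiagonal] at hq
          rw [Finset.mem_filter, Finset.mem_product, Nat.mem_divisors, Nat.mem_divisors]
          have hdj := Nat.dvd_of_mem_divisors hd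
          exact ⟨⟨⟨(Dvd.intro _ hq.1).trans hdj, hj.ne'⟩,
            ⟨(Dvd.intro_left _ hq.1).trans hdj, hj.ne'⟩⟩, hq.1⟩
        refine le_trans ?_ (Finset.sum_le_sum_of_subset_of_nonneg hsub (fun q _ _ => by
          have := P004.B.dv_nonneg q.1
          have := P004.B.dv_nonneg q.2
          positivity))
        have hcard : (d.divisorsAntidiagonal.card : ℝ) = dv d := by
          unfold P004.dv
          rw [← Nat.map_div_right_divisors, Finset.card_map]
        calc Aw d ^ 2 * dv d ^ (K + 1) * (d : ℝ) ^ (-s)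
            = ∑ q ∈ d.divisorsAntidiagonal, Aw d ^ 2 * dv d ^ K * (d : ℝ) ^ (-s) := by
              rw [Finset.sum_const, nsmul_eq_mul, hcard]; ring
          _ ≤ _ := by
              apply Finset.sum_le_sum
              intro q hq
              have hqd := (Nat.mem_divisorsAntidiagonal.1 hq).1
              have hd0 : d ≠ 0 := (Nat.mem_divisorsAntidiagonal.1 hq).2
              have hq1 : q.1 ≠ 0 := left_ne_zero_of_mul (hqd ▸ hd0)
              have hq2 : q.2 ≠ 0 := right_ne_zero_of_mul (hqd ▸ hd0)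
              have h3 : (d : ℝ) ^ (-s) = (q.1 : ℝ) ^ (-s) * (q.2 : ℝ) ^ (-s) := by
                rw [← hqd]; push_cast
                rw [Real.mul_rpow (by positivity) (by positivity)]
              have h4 : dv d ^ K ≤ dv q.1 ^ K * dv q.2 ^ K := by
                rw [← mul_pow, ← hqd]
                exact pow_le_pow_left₀ (P004.B.dv_nonneg _) (P004.B.dv_mul_le _ _) _
              have h5 : Aw d = Aw q.1 * Aw q.2 := by rw [← hqd, AW.Aw_mul hq1 hq2]
              rw [h3, h5]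
              calc (Aw q.1 * Aw q.2) ^ 2 * dv d ^ K * ((q.1 : ℝ) ^ (-s) * (q.2 : ℝ) ^ (-s))
                  ≤ (Aw q.1 * Aw q.2) ^ 2 * (dv q.1 ^ K * dv q.2 ^ K) *
                    ((q.1 : ℝ) ^ (-s) * (q.2 : ℝ) ^ (-s)) := by gcongr
                _ = _ := by ring
      refine (Finset.sum_le_sum h2).trans ?_
      apply Finset.sum_fiberwise_le_sum_of_sum_fiber_nonneg
      intro y _
      apply Finset.sum_nonneg
      intro q _
      have := P004.B.dv_nonneg q.1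
      have := P004.B.dv_nonneg q.2
      positivity
    refine h1.trans ?_
    have h0 : 0 ≤ ∑ d ∈ j.divisors, Aw d ^ 2 * dv d ^ K * (d : ℝ) ^ (-s) := by
      apply Finset.sum_nonneg
      intro d _
      have := P004.B.dv_nonneg d
      positivity
    calc _ ≤ Real.exp (2 ^ K * (4 * pg s j)) * Real.exp (2 ^ K * (4 * pg s j)) :=
          mul_le_mul ih ih h0 (by positivity)
      _ = _ := by rw [← Real.exp_add]; congr 1; ring

/-- the sum over the prime factors -/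
theorem pg_le {η : ℝ} (h0 : 0 < η) (h1 : η ≤ dl) : ∃ C : ℝ, 1 ≤ C ∧ ∀ (L : ℝ) (j : ℕ), 1 ≤ L →
    0 < j → Real.log j ≤ L → pg (1 - η) j ≤ C * L ^ (2 * η / dl) := by
  have hd0 := dl_pos
  have hd8 := dl_le
  have hk := AW.one_le_kk
  have hl2 : 0 < Real.log 2 := Real.log_pos (by norm_num)
  -- the constant
  set K : ℝ := AW.kk * (8 * (1 + 1 / (η * Real.log 2))) with hK
  have hK0 : 0 < K := by rw [hK]; positivity
  refine ⟨2 + 4 * K, by linarith, fun L j hL hj hjL => ?_⟩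
  have hL0 : 0 < L := by linarith
  set T : ℝ := 2 * L ^ (1 / dl) with hT
  have hLd : 1 ≤ L ^ (1 / dl) := Real.one_le_rpow hL (by positivity)
  have hT2 : 2 ≤ T := by rw [hT]; linarith
  have hT0 : 0 < T := by linarith
  have e : -(1 - η) = η - 1 := by ring
  unfold pg
  rw [e, ← Finset.sum_filter_add_sum_filter_not j.primeFactors (fun p => (p : ℝ) ≤ T)]
  have hLη : L ^ (η / dl) ≤ L ^ (2 * η / dl) := by
    apply Real.rpow_le_rpow_of_exponent_le hL
    have : 0 ≤ η / dl := by positivity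
    rw [mul_div_assoc]; linarith
  have hLη1 : 1 ≤ L ^ (2 * η / dl) := Real.one_le_rpow hL (by positivity)
  have a1 : ∑ p ∈ j.primeFactors.filter (fun p : ℕ => (p : ℝ) ≤ T), aw p ^ 2 * (p : ℝ) ^ (η - 1) ≤
      4 * K * L ^ (2 * η / dl) := by
    have hpr : ∀ p ∈ j.primeFactors.filter (fun p : ℕ => (p : ℝ) ≤ T), p.Prime :=
      fun p hp => Nat.prime_of_mem_primeFactors (Finset.mem_filter.1 hp).1
    have b1 : ∀ p ∈ j.primeFactors.filter (fun p : ℕ => (p : ℝ) ≤ T),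
        aw p ^ 2 * (p : ℝ) ^ (η - 1) ≤ T ^ η * AW.wq p := by
      intro p hp
      have hp0 : (0 : ℝ) < p := by exact_mod_cast (hpr p hp).pos
      have hpT := (Finset.mem_filter.1 hp).2
      unfold AW.wq
      rw [Real.rpow_sub_one hp0.ne']
      calc aw p ^ 2 * ((p : ℝ) ^ η / p) = (p : ℝ) ^ η * (aw p ^ 2 / p) := by ring
        _ ≤ T ^ η * (aw p ^ 2 / p) := by gcongr
    refine (Finset.sum_le_sum b1).trans ?_
    rw [← Finset.mul_sum]
    have b2 := P004X.sum_inv_range AW.dw hpr (le_refl (2 : ℝ)) hT2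
      (fun p hp => by exact_mod_cast (hpr p hp).two_le) (fun p hp => (Finset.mem_filter.1 hp).2)
    -- `log (log T / log 2) ≤ log T / log 2 ≤ T^η / (η log 2)`
    have hlogT : 0 < Real.log T := Real.log_pos (by linarith)
    have b3 : Real.log (Real.log T / Real.log 2) ≤ T ^ η / (η * Real.log 2) := by
      have c1 : Real.log (Real.log T / Real.log 2) ≤ Real.log T / Real.log 2 :=
        (Real.log_le_sub_one_of_pos (by positivity)).trans (by linarith)
      have c2 : Real.log T ≤ T ^ η / η := Real.log_le_rpow_div hT0.le h0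
      calc _ ≤ Real.log T / Real.log 2 := c1
        _ ≤ (T ^ η / η) / Real.log 2 := by gcongr
        _ = _ := by rw [div_div]
    have hTη : 1 ≤ T ^ η := Real.one_le_rpow (by linarith) h0.le
    have b4 : ∑ p ∈ j.primeFactors.filter (fun p : ℕ => (p : ℝ) ≤ T), AW.wq p ≤ K * T ^ η := by
      refine b2.trans ?_
      rw [hK]
      have : 1 + Real.log (Real.log T / Real.log 2) ≤ (1 + 1 / (η * Real.log 2)) * T ^ η := by
        have : T ^ η / (η * Real.log 2) = 1 / (η * Real.log 2) * T ^ η := by ring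
        nlinarith
      calc AW.kk * (8 * (1 + Real.log (Real.log T / Real.log 2)))
          ≤ AW.kk * (8 * ((1 + 1 / (η * Real.log 2)) * T ^ η)) := by
            have := AW.kk_pos
            gcongr
        _ = _ := by ring
    have b5 : T ^ η ≤ 2 * L ^ (η / dl) := by
      rw [hT, Real.mul_rpow (by norm_num) (by positivity), ← Real.rpow_mul hL0.le]
      have c1 : (2 : ℝ) ^ η ≤ 2 := by
        calc (2 : ℝ) ^ η ≤ (2 : ℝ) ^ (1 : ℝ) :=
              Real.rpow_le_rpow_of_exponent_le (by norm_num) (by linarith)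
          _ = 2 := Real.rpow_one _
      have c2 : L ^ (1 / dl * η) = L ^ (η / dl) := by congr 1; ring
      rw [c2]
      gcongr
    have b6 : L ^ (η / dl) * L ^ (η / dl) = L ^ (2 * η / dl) := by
      rw [← Real.rpow_add hL0]; congr 1; ring
    calc T ^ η * ∑ p ∈ j.primeFactors.filter (fun p : ℕ => (p : ℝ) ≤ T), AW.wq p
        ≤ (2 * L ^ (η / dl)) * (K * (2 * L ^ (η / dl))) := by
          refine mul_le_mul b5 (b4.trans (by gcongr)) ?_ (by positivity)
          exact Finset.sum_nonneg fun p _ => AW.wq_nonneg p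
      _ = 4 * K * (L ^ (η / dl) * L ^ (η / dl)) := by ring
      _ = _ := by rw [b6]
  have a2 : ∑ p ∈ j.primeFactors.filter (fun p : ℕ => ¬ (p : ℝ) ≤ T), aw p ^ 2 * (p : ℝ) ^ (η - 1) ≤
      2 * L ^ (2 * η / dl) := by
    have b1 : ∀ p ∈ j.primeFactors.filter (fun p : ℕ => ¬ (p : ℝ) ≤ T),
        aw p ^ 2 * (p : ℝ) ^ (η - 1) ≤ 1 / L := by
      intro p hp
      rw [Finset.mem_filter] at hp
      have hpp := Nat.prime_of_mem_primeFactors hp.1
      have hp1 : (1 : ℝ) ≤ p := by exact_mod_cast hpp.one_le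
      have hp0 : (0 : ℝ) < p := by linarith
      have hpT : L ^ (1 / dl) ≤ p := by
        have := hp.2
        push Not at this
        rw [hT] at this
        linarith
      have c1 : aw p ^ 2 * (p : ℝ) ^ (η - 1) ≤ (p : ℝ) ^ (-dl) := by
        by_cases hb : p ∣ bd
        · have : aw p = 1 := by unfold aw; rw [if_pos hb]
          rw [this, one_pow, one_mul]
          exact Real.rpow_le_rpow_of_exponent_le hp1 (by linarith)
        · calc aw p ^ 2 * (p : ℝ) ^ (η - 1)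
              ≤ (p : ℝ) ^ (1 - 2 * dl) / 2 * (p : ℝ) ^ (η - 1) := by
                gcongr; exact aw_dl hpp hb
            _ = (p : ℝ) ^ (η - 2 * dl) / 2 := by
                rw [div_mul_eq_mul_div, ← Real.rpow_add hp0]; congr 2; ring
            _ ≤ (p : ℝ) ^ (η - 2 * dl) := by
                have : 0 ≤ (p : ℝ) ^ (η - 2 * dl) := Real.rpow_nonneg hp0.le _
                linarith
            _ ≤ _ := Real.rpow_le_rpow_of_exponent_le hp1 (by linarith)
      refine c1.trans ?_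
      calc (p : ℝ) ^ (-dl) ≤ (L ^ (1 / dl)) ^ (-dl) :=
            Real.rpow_le_rpow_of_nonpos (by positivity) hpT (by linarith)
        _ = 1 / L := by
            rw [← Real.rpow_mul hL0.le]
            have : 1 / dl * -dl = -1 := by field_simp
            rw [this, Real.rpow_neg_one, one_div]
    refine (Finset.sum_le_sum b1).trans ?_
    rw [Finset.sum_const, nsmul_eq_mul]
    have b2 : ((j.primeFactors.filter (fun p : ℕ => ¬ (p : ℝ) ≤ T)).card : ℝ) ≤ 2 * L := by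
      have c1 : ((j.primeFactors.filter (fun p : ℕ => ¬ (p : ℝ) ≤ T)).card : ℝ) ≤
          j.primeFactors.card := by
        exact_mod_cast Finset.card_filter_le _ _
      have c2 := card_primeFactors hj
      linarith
    calc _ ≤ 2 * L * (1 / L) := by gcongr
      _ = 2 * 1 := by field_simp
      _ ≤ _ := by gcongr
  calc _ ≤ 4 * K * L ^ (2 * η / dl) + 2 * L ^ (2 * η / dl) := add_le_add a1 a2
    _ = _ := by ring

/-- the interchange of summation -/
theorem swap (K : ℕ) {η : ℝ} (h0 : 0 < η) (h1 : η ≤ 1 / 2) {j : ℕ} (hj : 0 < j) :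
    ∑' g : ℕ, ENNReal.ofReal (Aw g ^ 2 * dv g ^ K * (g : ℝ) ^ (η - 2) *
      ∑ d ∈ g.divisors.filter (· ∣ j), (d : ℝ)) ≤
    ENNReal.ofReal (∑ d ∈ j.divisors, Aw d ^ 2 * dv d ^ K * (d : ℝ) ^ (-(1 - η))) *
      ∑' n : ℕ, ENNReal.ofReal (Aw n ^ 2 * dv n ^ K * (n : ℝ) ^ (-1 - (1 / 2 : ℝ))) := by
  set f : ℕ → ℝ≥0∞ := fun d => if d ∣ j then
    ENNReal.ofReal (Aw d ^ 2 * dv d ^ K * (d : ℝ) ^ (-(1 - η))) else 0 with hf
  set g' : ℕ → ℝ≥0∞ := fun n =>
    ENNReal.ofReal (Aw n ^ 2 * dv n ^ K * (n : ℝ) ^ (-1 - (1 / 2 : ℝ))) with hg'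
  have e1 : ENNReal.ofReal (∑ d ∈ j.divisors, Aw d ^ 2 * dv d ^ K * (d : ℝ) ^ (-(1 - η))) =
      ∑' d, f d := by
    rw [ENNReal.ofReal_sum_of_nonneg (fun d _ => by
      have := P004.B.dv_nonneg d
      positivity)]
    rw [tsum_eq_sum (s := j.divisors)]
    · apply Finset.sum_congr rfl
      intro d hd
      rw [hf]
      simp only
      rw [if_pos (Nat.dvd_of_mem_divisors hd)]
    · intro d hd
      rw [hf]
      simp only
      rw [if_neg]
      intro h
      exact hd (Nat.mem_divisors.2 ⟨h, hj.ne'⟩)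
  rw [e1]
  refine le_trans ?_ (P004.B.tsum_divisors_mul f g')
  apply ENNReal.tsum_le_tsum
  intro g
  rcases Nat.eq_zero_or_pos g with rfl | hg
  · simp
  rw [Finset.mul_sum, ENNReal.ofReal_sum_of_nonneg (fun d _ => by
      have := P004.B.dv_nonneg g
      positivity), Finset.sum_filter]
  rw [← Nat.map_div_right_divisors, Finset.sum_map]
  apply Finset.sum_le_sum
  intro d hd
  have hdg := Nat.dvd_of_mem_divisors hd
  change _ ≤ f d * g' (g / d)
  by_cases hdj : d ∣ j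
  · rw [if_pos hdj]
    obtain ⟨n, rfl⟩ := hdg
    have hd0 : 0 < d := Nat.pos_of_ne_zero (fun h => by simp [h] at hg)
    have hn0 : 0 < n := Nat.pos_of_ne_zero (fun h => by simp [h] at hg)
    have e2 : d * n / d = n := Nat.mul_div_cancel_left n hd0
    rw [e2, hf, hg']
    simp only
    rw [if_pos hdj, ← ENNReal.ofReal_mul (by
      have := P004.B.dv_nonneg d
      positivity)]
    apply ENNReal.ofReal_le_ofReal
    have hd1 : (0 : ℝ) < d := by exact_mod_cast hd0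
    have hn1 : (1 : ℝ) ≤ n := by exact_mod_cast hn0
    have h3 : dv (d * n) ^ K ≤ dv d ^ K * dv n ^ K := by
      rw [← mul_pow]
      exact pow_le_pow_left₀ (P004.B.dv_nonneg _) (P004.B.dv_mul_le _ _) _
    have h4 : ((d * n : ℕ) : ℝ) ^ (η - 2) * d ≤ (d : ℝ) ^ (-(1 - η)) * (n : ℝ) ^ (-1 - (1 / 2 : ℝ)) := by
      push_cast
      rw [Real.mul_rpow hd1.le (by linarith)]
      have h5 : (d : ℝ) ^ (η - 2) * d = (d : ℝ) ^ (-(1 - η)) := by
        rw [← Real.rpow_add_one hd1.ne']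
        congr 1; ring
      calc (d : ℝ) ^ (η - 2) * (n : ℝ) ^ (η - 2) * d
          = (d : ℝ) ^ (-(1 - η)) * (n : ℝ) ^ (η - 2) := by rw [← h5]; ring
        _ ≤ _ := by
          apply mul_le_mul_of_nonneg_left _ (by positivity)
          exact Real.rpow_le_rpow_of_exponent_le hn1 (by linarith)
    have h6 : 0 ≤ ((d * n : ℕ) : ℝ) ^ (η - 2) * d := by positivity
    rw [AW.Aw_mul hd0.ne' hn0.ne']
    have h7 : 0 ≤ (Aw d * Aw n) ^ 2 := by positivity
    calc (Aw d * Aw n) ^ 2 * dv (d * n) ^ K * ((d * n : ℕ) : ℝ) ^ (η - 2) * d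
        = (Aw d * Aw n) ^ 2 * (dv (d * n) ^ K * (((d * n : ℕ) : ℝ) ^ (η - 2) * d)) := by ring
      _ ≤ (Aw d * Aw n) ^ 2 * ((dv d ^ K * dv n ^ K) *
          ((d : ℝ) ^ (-(1 - η)) * (n : ℝ) ^ (-1 - (1 / 2 : ℝ)))) := by
          apply mul_le_mul_of_nonneg_left _ h7
          exact mul_le_mul h3 h4 h6 (by
            have := P004.B.dv_nonneg d
            have := P004.B.dv_nonneg n
            positivity)
      _ = _ := by ring
  · rw [if_neg hdj]
    exact bot_le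

end Gsum

variable [P004G.Crv]

open P004G in
theorem pfGsum : StGsum := by
  intro B A δ hδ
  obtain ⟨C₁, hC₁, A₁, hdiv⟩ := AW.div1 B
  have hd0 := Gsum.dl_pos
  have hd8 := Gsum.dl_le
  set η : ℝ := min δ 1 * Gsum.dl / 4 with hη
  have hm : 0 < min δ 1 := lt_min hδ one_pos
  have h0 : 0 < η := by rw [hη]; positivity
  have hη1 : η ≤ Gsum.dl := by
    rw [hη]
    have : min δ 1 * Gsum.dl ≤ 1 * Gsum.dl := by gcongr; exact min_le_right _ _
    linarith
  have h1 : η ≤ 1 / 2 := by linarith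
  set κ : ℝ := 2 * η / Gsum.dl with hκ
  have hκe : κ = min δ 1 / 2 := by
    rw [hκ, hη]; field_simp; ring
  have hκ0 : 0 < κ := by rw [hκe]; linarith
  have h2 : 2 * κ ≤ δ := by rw [hκe]; linarith [min_le_left δ 1]
  obtain ⟨Cp, hCp, hpg⟩ := Gsum.pg_le h0 hη1
  set c₁ : ℝ := 2 ^ B * (4 * Cp) with hc₁
  set c₂ : ℝ := c₁ + A / κ with hc₂
  set K₁ : ℝ := C₁ * (1 / (1 / 2 : ℝ)) ^ A₁ with hK₁
  have hK₁0 : 0 < K₁ := by rw [hK₁]; positivity
  refine ⟨max 1 (Real.exp (c₂ ^ 2 / (4 * η)) * K₁), le_max_left _ _, ?_⟩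
  intro L j hL hj hjL
  have hL0 : 0 < L := by linarith
  set G : ℝ := Real.exp (L ^ δ) with hG
  have hG0 : 0 < G := Real.exp_pos _
  -- Rankin
  have r1 : ∀ g : ℕ, ENNReal.ofReal (if Real.exp (L ^ δ) < g then
      Aw g ^ 2 * P004.dv g ^ B / g ^ 2 * ∑ d ∈ g.divisors.filter (· ∣ j), (d : ℝ) else 0) ≤
      ENNReal.ofReal (G ^ (-η)) * ENNReal.ofReal (Aw g ^ 2 * P004.dv g ^ B * (g : ℝ) ^ (η - 2) *
        ∑ d ∈ g.divisors.filter (· ∣ j), (d : ℝ)) := by
    intro g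
    rw [← ENNReal.ofReal_mul (by positivity)]
    apply ENNReal.ofReal_le_ofReal
    have hS : 0 ≤ ∑ d ∈ g.divisors.filter (· ∣ j), (d : ℝ) := by positivity
    have hdv := P004.B.dv_nonneg g
    split_ifs with hg
    · have hg0 : (0 : ℝ) < g := hG0.trans hg
      have e1 : (1 : ℝ) ≤ G ^ (-η) * (g : ℝ) ^ η := by
        rw [Real.rpow_neg hG0.le, ← div_eq_inv_mul, one_le_div (by positivity)]
        exact Real.rpow_le_rpow hG0.le hg.le h0.le
      have e2 : (g : ℝ) ^ (η - 2) = (g : ℝ) ^ η / g ^ 2 := by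
        rw [Real.rpow_sub hg0]
        norm_num
      rw [e2]
      calc Aw g ^ 2 * P004.dv g ^ B / g ^ 2 * ∑ d ∈ g.divisors.filter (· ∣ j), (d : ℝ)
          = 1 * (Aw g ^ 2 * P004.dv g ^ B / g ^ 2 *
            ∑ d ∈ g.divisors.filter (· ∣ j), (d : ℝ)) := by ring
        _ ≤ (G ^ (-η) * (g : ℝ) ^ η) *
            (Aw g ^ 2 * P004.dv g ^ B / g ^ 2 * ∑ d ∈ g.divisors.filter (· ∣ j), (d : ℝ)) :=
            mul_le_mul_of_nonneg_right e1 (by positivity)
        _ = _ := by ring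
    · positivity
  refine (ENNReal.tsum_le_tsum r1).trans ?_
  rw [ENNReal.tsum_mul_left]
  have r2 := Gsum.swap B h0 h1 hj
  have r3 := hdiv (1 / 2) (by norm_num) (by norm_num)
  have r4 : ∑ d ∈ j.divisors, Aw d ^ 2 * P004.dv d ^ B * (d : ℝ) ^ (-(1 - η)) ≤
      Real.exp (c₁ * L ^ κ) := by
    refine (Gsum.sg_dv hη1 j B).trans ?_
    apply Real.exp_le_exp.2
    have := hpg L j hL hj hjL
    calc (2 : ℝ) ^ B * (4 * Gsum.pg (1 - η) j)
        ≤ 2 ^ B * (4 * (Cp * L ^ κ)) := by gcongr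
      _ = _ := by rw [hc₁]; ring
  have r5 : ENNReal.ofReal (G ^ (-η)) * ∑' g : ℕ, ENNReal.ofReal (Aw g ^ 2 * P004.dv g ^ B *
      (g : ℝ) ^ (η - 2) * ∑ d ∈ g.divisors.filter (· ∣ j), (d : ℝ)) ≤
      ENNReal.ofReal (G ^ (-η) * (Real.exp (c₁ * L ^ κ) * K₁)) := by
    rw [ENNReal.ofReal_mul (by positivity), ENNReal.ofReal_mul (by positivity)]
    gcongr
    exact r2.trans (mul_le_mul' (ENNReal.ofReal_le_ofReal r4) r3)
  refine r5.trans (ENNReal.ofReal_le_ofReal ?_)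
  have hx : 1 ≤ L ^ κ := Real.one_le_rpow hL hκ0.le
  have q1 : G ^ (-η) = Real.exp (-(η * L ^ δ)) := by
    rw [hG, ← Real.exp_mul]; congr 1; ring
  have q2 : (L ^ κ) ^ 2 ≤ L ^ δ := by
    rw [← Real.rpow_natCast, ← Real.rpow_mul hL0.le]
    apply Real.rpow_le_rpow_of_exponent_le hL
    push_cast
    linarith
  have q3 : (L : ℝ) ^ A ≤ Real.exp (A / κ * L ^ κ) := by
    have := Real.log_le_rpow_div hL0.le hκ0
    calc (L : ℝ) ^ A = Real.exp (A * Real.log L) := by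
          rw [mul_comm, Real.exp_mul, Real.exp_log hL0, Real.rpow_natCast]
      _ ≤ Real.exp (A / κ * L ^ κ) := by
          apply Real.exp_le_exp.2
          calc (A : ℝ) * Real.log L ≤ A * (L ^ κ / κ) := by gcongr
            _ = _ := by ring
  rw [le_div_iff₀ (by positivity)]
  refine le_trans ?_ (le_max_right _ _)
  calc G ^ (-η) * (Real.exp (c₁ * L ^ κ) * K₁) * L ^ A
      ≤ G ^ (-η) * (Real.exp (c₁ * L ^ κ) * K₁) * Real.exp (A / κ * L ^ κ) := by gcongr
    _ = Real.exp (-(η * L ^ δ) + c₁ * L ^ κ + A / κ * L ^ κ) * K₁ := by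
        rw [q1, Real.exp_add, Real.exp_add]; ring
    _ ≤ Real.exp (c₂ ^ 2 / (4 * η)) * K₁ := by
        gcongr
        have q4 : -(η * L ^ δ) + c₁ * L ^ κ + A / κ * L ^ κ ≤
            -(η * (L ^ κ) ^ 2) + c₂ * L ^ κ := by
          have : η * (L ^ κ) ^ 2 ≤ η * L ^ δ := by gcongr
          rw [hc₂]
          linarith
        refine q4.trans ?_
        rw [le_div_iff₀ (by positivity)]
        nlinarith [sq_nonneg (2 * η * L ^ κ - c₂)]

end P004E
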